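import Mathlib
import Vale.Agent.P219.Univ.Geo
import Vale.Agent.P219.Univ.Gauss
import Vale.Agent.P219.Six.Geo.Basic
import Vale.Agent.P219.Six.Bridge.Flow

/-!
# The exponential chart of a complete metric

A global flow of the geodesic field gives at every point a smooth exponential chart; in nonpositive
curvature its differential does not shrink vectors.
-/

open Set Filter Topology
open scoped ContDiff RealInnerProductSpace

namespace Vale.Agent.P255.Hadamard

open Vale.Agent.P219 Vale.Agent.P219.Univ Vale.Agent.P219.Six.Bridge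
open Vale.Agent.P219.Six (sprayF IsGeo)

noncomputable section

variable {n : ℕ} {g : MetricField n}

/-- All geodesics exist for all times. -/
def GeoComplete (g : MetricField n) : Prop :=
  ∀ x v : Space n, ∃ c c' : ℝ → Space n, IsGeo g c c' ∧ c 0 = x ∧ c' 0 = v

theorem contDiff_spray (hg : IsMetric g) : ContDiff ℝ ∞ (sprayF g) :=
  contDiff_snd.prodMk (((contDiff_gam hg).comp
    (contDiff_fst.prodMk (contDiff_snd.prodMk contDiff_snd))).neg)

/-- Complete geodesics form a global flow. -/
theorem GeoComplete.exists_isFlow (hg : IsMetric g) (hgeo : GeoComplete g) :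
    ∃ Φ : ℝ → Space n × Space n → Space n × Space n, IsFlow (sprayF g) Φ := by
  choose c c' hc hc0 hc'0 using hgeo
  refine ⟨fun t p => (c p.1 p.2 t, c' p.1 p.2 t), contDiff_spray hg, fun p => ?_, fun p t => ?_⟩
  · simp [hc0, hc'0]
  · exact (hc p.1 p.2 t).1.prodMk (hc p.1 p.2 t).2

section

variable {Φ : ℝ → Space n × Space n → Space n × Space n} (hΦ : IsFlow (sprayF g) Φ)
include hΦ

theorem isGeo_flow (x v : Space n) :
    IsGeo g (fun t => (Φ t (x, v)).1) (fun t => (Φ t (x, v)).2) := fun t =>
  ⟨(ContinuousLinearMap.fst ℝ (Space n) (Space n)).hasFDerivAt.comp_hasDerivAt t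
      (hΦ.deriv (x, v) t),
    (ContinuousLinearMap.snd ℝ (Space n) (Space n)).hasFDerivAt.comp_hasDerivAt t
      (hΦ.deriv (x, v) t)⟩

theorem flow_smul (hg : IsMetric g) (x v : Space n) (t : ℝ) :
    (Φ 1 (x, t • v)).1 = (Φ t (x, v)).1 := by
  have h1 : IsGeo g (fun s => (Φ (t * s) (x, v)).1) (fun s => t • (Φ (t * s) (x, v)).2) := by
    intro s
    have hl : HasDerivAt (fun r => t * r) t s := by simpa using (hasDerivAt_id s).const_mul t
    obtain ⟨e1, e2⟩ := isGeo_flow hΦ x v (t * s)
    refine ⟨e1.scomp s hl, ((e2.scomp s hl).const_smul t).congr_deriv ?_⟩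
    rw [Geo.gam_smul₁, Geo.gam_smul₂]
    module
  have := congrFun ((isGeo_flow hΦ x (t • v)).unique hg h1 (by simp [hΦ.zero])
    (by simp [hΦ.zero])).1 1
  simpa using this

/-- The exponential chart at a point. -/
theorem exists_chart (hg : IsMetric g) (o : Space n) :
    ∃ E : Space n → Space n, Geo.Chart g o E := by
  obtain ⟨L, hL, -⟩ := exists_frame hg o
  set E : Space n → Space n := fun u => (Φ 1 (o, L u)).1
  have hE : ContDiff ℝ ∞ E := contDiff_fst.comp (hΦ.contDiff_one.comp
    (contDiff_const.prodMk (L : Space n →L[ℝ] Space n).contDiff))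
  have hray : ∀ u : Space n, (fun s : ℝ => E (s • u)) = fun s => (Φ s (o, L u)).1 := fun u => by
    funext s
    simp [E, map_smul, flow_smul hΦ hg]
  have hd : ∀ u, fderiv ℝ E 0 u = L u := fun u => by
    have h1 : HasDerivAt (fun s : ℝ => E (s • u)) (fderiv ℝ E 0 u) 0 := by
      have h2 : HasFDerivAt E (fderiv ℝ E 0) ((0 : ℝ) • u) := by
        rw [zero_smul]; exact (hE.differentiable (by simp) 0).hasFDerivAt
      exact h2.comp_hasDerivAt (0 : ℝ) (Geo.hasDerivAt_ray u 0)
    rw [hray u] at h1
    rw [h1.unique ((isGeo_flow hΦ o (L u) 0).1)]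
    simp [hΦ.zero]
  refine ⟨E, hE, ?_, fun u v => ?_, fun u t => ?_⟩
  · have := congrFun (hray 0) 0
    simpa [hΦ.zero] using this
  · rw [hd, hd]
    have h1 := hL (u + v)
    simp only [map_add, ContinuousLinearMap.add_apply] at h1
    rw [norm_add_sq_real, hg.symm o (L v) (L u)] at h1
    linarith [hL u, hL v]
  · have e := isGeo_flow hΦ o (L u)
    have e1 : deriv (fun s : ℝ => E (s • u)) = fun s => (Φ s (o, L u)).2 := by
      rw [hray u]; exact funext fun s => (e s).1.deriv
    rw [e1, (e t).2.deriv]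
    congr 1
    rw [show E (t • u) = (Φ t (o, L u)).1 from congrFun (hray u) t]

end

/-- In nonpositive curvature the exponential chart does not shrink vectors. -/
theorem expand (hg : IsMetric g) {o : Space n} {E : Space n → Space n} (h : Geo.Chart g o E)
    (hs : SecBound g 0) (u w : Space n) :
    ‖w‖ ≤ gNorm g (E u) (fderiv ℝ E u w) := by
  set f : ℝ → ℝ := fun t => g (E (t • u)) (Geo.Y E u w t) (Geo.Y E u w t)
  have hd : ∀ t, HasDerivAt f (2 * g (E (t • u)) (Geo.DY g E u w t) (Geo.Y E u w t)) t := fun t => by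
    refine (Geo.hasDerivAt_g hg (h.deriv_ray u t) (h.deriv_Y u w t) (h.deriv_Y u w t)).congr_deriv ?_
    rw [Geo.DY, hg.symm (E (t • u)) (Geo.Y E u w t)]
    ring
  have hnn : ∀ t : ℝ, 0 < t → 0 ≤ g (E (t • u)) (Geo.DY g E u w t) (Geo.Y E u w t) := fun t ht => by
    have h1 := Geo.expand_one hg h (le_refl (0 : ℝ)) hs (t • u) w
    have e1 : Geo.Y E (t • u) w 1 = Geo.Y E u w t := by simp [Geo.Y]
    have e2 : Geo.DY g E (t • u) w 1 = t • Geo.DY g E u w t := by
      simp [Geo.DY, Geo.Y', Geo.Y, Geo.gam_smul₁, smul_add]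
    rw [e1, e2] at h1
    simp only [map_smul, smul_apply, smul_eq_mul] at h1
    exact (mul_nonneg_iff_of_pos_left ht).1 h1
  have hc : Continuous f := continuous_iff_continuousAt.2 fun t => (hd t).continuousAt
  have hmono : MonotoneOn f (Icc 0 1) := monotoneOn_of_hasDerivWithinAt_nonneg (convex_Icc 0 1)
    hc.continuousOn (fun t _ => (hd t).hasDerivWithinAt) fun t ht => by
      rw [interior_Icc] at ht
      linarith [hnn t ht.1]
  have h01 := hmono (left_mem_Icc.2 zero_le_one) (right_mem_Icc.2 zero_le_one) zero_le_one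
  simp only [f, zero_smul, one_smul, Geo.Y, h.zero, h.iso, real_inner_self_eq_norm_sq] at h01
  exact Real.le_sqrt_of_sq_le h01

/-- Hence its differential is injective. -/
theorem fderiv_injective (hg : IsMetric g) {o : Space n} {E : Space n → Space n}
    (h : Geo.Chart g o E) (hs : SecBound g 0) (u : Space n) :
    Function.Injective (fderiv ℝ E u) := by
  refine (injective_iff_map_eq_zero _).2 fun w hw => ?_
  have h1 := expand hg h hs u w
  rw [hw] at h1
  simpa [gNorm] using h1

end

end Vale.Agent.P255.Hadamard
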