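import Mathlib
import Vale.Agent.P219.Six.Bridge.Flow

/-!
# Complete smooth vector fields from an a priori bound

If every solution of every damped equation `c' = θ(t) F(c)`, with `0 ≤ θ ≤ 1`, stays bounded on
bounded time intervals, then the smooth field `F` has a global flow.
-/

open Set Filter Topology
open scoped ContDiff NNReal

namespace Vale.Agent.P255.Hadamard

open Vale.Agent.P219.Six.Bridge

noncomputable section

variable {V : Type} [NormedAddCommGroup V] [NormedSpace ℝ V] [FiniteDimensional ℝ V]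

/-- All damped solutions stay bounded on bounded time intervals. -/
def AprioriBound (F : V → V) : Prop :=
  ∀ (p : V) (T : ℝ), 0 ≤ T → ∃ R : ℝ, ∀ (c : ℝ → V) (θ : ℝ → ℝ), c 0 = p →
    (∀ t ∈ Icc (-T) T, θ t ∈ Icc (0 : ℝ) 1) →
    (∀ t ∈ Icc (-T) T, HasDerivWithinAt c (θ t • F (c t)) (Icc (-T) T) t) →
    ∀ t ∈ Icc (-T) T, ‖c t‖ ≤ R

/-- Solutions on a symmetric interval are unique. -/
theorem eqOn_of_solutions {F : V → V} (hF : ContDiff ℝ ∞ F) {c d : ℝ → V} {T : ℝ}
    (hc : ∀ t ∈ Icc (-T) T, HasDerivWithinAt c (F (c t)) (Icc (-T) T) t)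
    (hd : ∀ t ∈ Icc (-T) T, HasDerivWithinAt d (F (d t)) (Icc (-T) T) t) (hT : 0 < T)
    (h0 : c 0 = d 0) : EqOn c d (Icc (-T) T) := by
  have hcc : ContinuousOn c (Icc (-T) T) := fun t ht => (hc t ht).continuousWithinAt
  have hdc : ContinuousOn d (Icc (-T) T) := fun t ht => (hd t ht).continuousWithinAt
  obtain ⟨R, hR⟩ := ((isCompact_Icc.image_of_continuousOn hcc).union
    (isCompact_Icc.image_of_continuousOn hdc)).isBounded.subset_closedBall 0
  have := FiniteDimensional.proper ℝ V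
  obtain ⟨K, hK⟩ := ((hF.of_le (show (1 : WithTop ℕ∞) ≤ ∞ by simp)).contDiffOn
    (s := Metric.closedBall (0 : V) R)).exists_lipschitzOnWith one_ne_zero
      (convex_closedBall (0 : V) R) (isCompact_closedBall _ _)
  exact ODE_solution_unique_of_mem_Icc (v := fun _ => F) (s := fun _ => Metric.closedBall 0 R)
    (fun _ _ => hK) (t₀ := 0) ⟨by linarith, hT⟩ hcc
    (fun t ht => (hc t (Ioo_subset_Icc_self ht)).hasDerivAt (Icc_mem_nhds ht.1 ht.2))
    (fun t ht => hR (Or.inl (mem_image_of_mem c (Ioo_subset_Icc_self ht)))) hdc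
    (fun t ht => (hd t (Ioo_subset_Icc_self ht)).hasDerivAt (Icc_mem_nhds ht.1 ht.2))
    (fun t ht => hR (Or.inr (mem_image_of_mem d (Ioo_subset_Icc_self ht)))) h0

/-- A solution on every symmetric interval. -/
theorem exists_solution_Icc {F : V → V} (hF : ContDiff ℝ ∞ F) (hb : AprioriBound F) (p : V)
    {T : ℝ} (hT : 0 ≤ T) :
    ∃ c : ℝ → V, c 0 = p ∧
      ∀ t ∈ Icc (-T) T, HasDerivWithinAt c (F (c t)) (Icc (-T) T) t := by
  obtain ⟨R, hR⟩ := hb p T hT
  have := FiniteDimensional.proper ℝ V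
  let θ : ContDiffBump (0 : V) :=
    ⟨max R 0 + 1, max R 0 + 2, by positivity, by linarith⟩
  set G : V → V := fun z => θ z • F z
  have hF1 : ContDiff ℝ 1 F := hF.of_le (by simp)
  have hG : ContDiff ℝ 1 G := (θ.contDiff (n := 1)).smul hF1
  have hGs : HasCompactSupport G := θ.hasCompactSupport.smul_right
  obtain ⟨K, hK⟩ := hG.lipschitzWith_of_hasCompactSupport hGs one_ne_zero
  obtain ⟨L, hL⟩ := hG.continuous.bounded_above_of_compact_support hGs
  have h0 : (0 : ℝ) ∈ Icc (-T) T := ⟨by linarith, hT⟩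
  obtain ⟨c, hc0, hc⟩ := IsPicardLindelof.exists_eq_forall_mem_Icc_hasDerivWithinAt₀
    (f := fun _ => G) (t₀ := ⟨0, h0⟩) (x₀ := p) (a := L.toNNReal * T.toNNReal) (L := L.toNNReal)
    (K := K) (IsPicardLindelof.of_time_independent
      (fun x _ => (hL x).trans (Real.le_coe_toNNReal L)) hK.lipschitzOnWith
      (by simp [Real.coe_toNNReal T hT]))
  refine ⟨c, hc0, fun t ht => ?_⟩
  have hct := hR c (fun s => θ (c s)) hc0 (fun s _ => ⟨θ.nonneg, θ.le_one⟩) hc t ht
  have h1 : θ (c t) = 1 := θ.one_of_mem_closedBall (by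
    rw [Metric.mem_closedBall, dist_zero_right]
    show ‖c t‖ ≤ max R 0 + 1
    linarith [le_max_left R 0])
  have h2 : HasDerivWithinAt c (G (c t)) (Icc (-T) T) t := hc t ht
  simpa [G, h1] using h2

/-- An a priori bound gives a global flow. -/
theorem exists_isFlow {F : V → V} (hF : ContDiff ℝ ∞ F) (hb : AprioriBound F) :
    ∃ Φ : ℝ → V → V, IsFlow F Φ := by
  have hex : ∀ (N : ℕ) (p : V), ∃ c : ℝ → V, c 0 = p ∧
      ∀ t ∈ Icc (-(N + 1 : ℝ)) (N + 1), HasDerivWithinAt c (F (c t)) (Icc (-(N + 1 : ℝ)) (N + 1)) t :=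
    fun N p => exists_solution_Icc hF hb p (by positivity)
  choose c hc0 hc using hex
  set Φ : ℝ → V → V := fun t p => c ⌈|t|⌉₊ p t
  have hagree : ∀ (p : V) (M : ℕ) (t : ℝ), |t| ≤ (M : ℝ) + 1 → Φ t p = c M p t := by
    intro p M t ht
    have hN : |t| ≤ (⌈|t|⌉₊ : ℝ) + 1 := by linarith [Nat.le_ceil |t|]
    set m : ℕ := min ⌈|t|⌉₊ M
    have hm : ∀ N : ℕ, m ≤ N →
        ∀ s ∈ Icc (-(m + 1 : ℝ)) (m + 1),
          HasDerivWithinAt (c N p) (F (c N p s)) (Icc (-(m + 1 : ℝ)) (m + 1)) s := by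
      intro N hNm s hs
      have hsub : Icc (-(m + 1 : ℝ)) (m + 1) ⊆ Icc (-(N + 1 : ℝ)) (N + 1) := by
        have : (m : ℝ) ≤ N := by exact_mod_cast hNm
        exact Icc_subset_Icc (by linarith) (by linarith)
      exact (hc N p s (hsub hs)).mono hsub
    have hmem : t ∈ Icc (-(m + 1 : ℝ)) (m + 1) := by
      rw [mem_Icc, ← abs_le]
      show |t| ≤ ((min ⌈|t|⌉₊ M : ℕ) : ℝ) + 1
      rcases le_total ⌈|t|⌉₊ M with h | h
      · rwa [min_eq_left h]
      · rwa [min_eq_right h]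
    exact eqOn_of_solutions hF (hm _ (min_le_left _ _)) (hm _ (min_le_right _ _)) (by positivity)
      (by rw [hc0, hc0]) hmem
  refine ⟨Φ, hF, fun p => ?_, fun p t => ?_⟩
  · simp [Φ, hc0]
  · set M : ℕ := ⌈|t|⌉₊ + 1
    have hMt : |t| + 1 ≤ (M : ℝ) := by
      simp only [M, Nat.cast_add, Nat.cast_one]
      linarith [Nat.le_ceil |t|]
    have hev : (fun s => Φ s p) =ᶠ[𝓝 t] c M p := by
      filter_upwards [Metric.ball_mem_nhds t one_pos] with s hs
      refine hagree p M s ?_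
      rw [Metric.mem_ball, Real.dist_eq] at hs
      linarith [abs_sub_abs_le_abs_sub s t]
    have hin : Icc (-(M + 1 : ℝ)) (M + 1) ∈ 𝓝 t :=
      Icc_mem_nhds (by linarith [neg_abs_le t]) (by linarith [le_abs_self t])
    have hd := (hc M p t (mem_of_mem_nhds hin)).hasDerivAt hin
    rw [← hagree p M t (by linarith)] at hd
    exact hd.congr_of_eventuallyEq hev

end

end Vale.Agent.P255.Hadamard
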