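import Mathlib
import Vale.Agent.P255.Hadamard.Flow
import Vale.Agent.P255.Hadamard.Exp

/-!
# The exponential chart of a complete nonpositively curved metric is a global diffeomorphism

The inverse sends `y` to the endpoint of the lift of the segment from the centre to `y`; the lift
is the time one map of a complete smooth field.
-/

open Set Filter Topology
open scoped ContDiff RealInnerProductSpace

set_option maxSynthPendingDepth 3

namespace Vale.Agent.P255.Hadamard

open Vale.Agent.P219 Vale.Agent.P219.Univ Vale.Agent.P219.Six.Bridge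

noncomputable section

variable {n : ℕ} {g : MetricField n}

/-- The field on pairs (segment direction, lifted point) whose flow lifts segments. -/
def liftField (E : Space n → Space n) (q : Space n × Space n) : Space n × Space n :=
  (0, (fderiv ℝ E q.2).inverse q.1)

variable {o : Space n} {E : Space n → Space n}

section

variable (hg : IsMetric g) (h : Geo.Chart g o E) (hs : SecBound g 0)
include hg h hs

theorem exists_equiv (u : Space n) :
    ∃ e : Space n ≃L[ℝ] Space n, (e : Space n →L[ℝ] Space n) = fderiv ℝ E u := by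
  have hinj : Function.Injective (fderiv ℝ E u : Space n →ₗ[ℝ] Space n) := fderiv_injective hg h hs u
  exact ⟨(LinearEquiv.ofBijective (fderiv ℝ E u : Space n →ₗ[ℝ] Space n)
    ⟨hinj, LinearMap.injective_iff_surjective.1 hinj⟩).toContinuousLinearEquiv,
    ContinuousLinearMap.ext fun _ => rfl⟩

theorem fderiv_inverse_apply (u w : Space n) :
    fderiv ℝ E u ((fderiv ℝ E u).inverse w) = w := by
  obtain ⟨e, he⟩ := exists_equiv hg h hs u
  simp [← he]

theorem contDiff_liftField : ContDiff ℝ ∞ (liftField E) := by
  refine contDiff_const.prodMk (contDiff_iff_contDiffAt.2 fun q => ?_)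
  obtain ⟨e, he⟩ := exists_equiv hg h hs q.2
  have h1 : ContDiffAt ℝ ∞ ContinuousLinearMap.inverse (fderiv ℝ E q.2) := by
    rw [← he]; exact contDiffAt_map_inverse e
  exact (h1.comp q (h.contDiff_D.contDiffAt.comp q contDiffAt_snd)).clm_apply contDiffAt_fst

theorem norm_inverse_le (u w : Space n) :
    ‖(fderiv ℝ E u).inverse w‖ ≤ gNorm g (E u) w := by
  have := expand hg h hs u ((fderiv ℝ E u).inverse w)
  rwa [fderiv_inverse_apply hg h hs] at this

theorem apriori_liftField : AprioriBound (liftField E) := by
  intro p T hT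
  set K : Set (Space n) := (fun s : ℝ => E p.2 + s • p.1) '' Icc (-T) T
  have hK : IsCompact K := isCompact_Icc.image (by fun_prop)
  have hcont : Continuous fun z : Space n => gNorm g z p.1 :=
    ((hg.smooth.continuous.clm_apply continuous_const).clm_apply continuous_const).sqrt
  obtain ⟨C, hC⟩ := hK.exists_bound_of_continuousOn hcont.continuousOn
  refine ⟨‖p‖ + ‖p‖ + max C 0 * T, fun c θ h0 hθ hc => ?_⟩
  have hI : Convex ℝ (Icc (-T) T) := convex_Icc _ _
  have h0m : (0 : ℝ) ∈ Icc (-T) T := ⟨by linarith, hT⟩
  -- the direction is constant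
  have hfst : ∀ t ∈ Icc (-T) T, (c t).1 = p.1 := by
    intro t ht
    have hd : ∀ s ∈ Icc (-T) T, HasDerivWithinAt (fun r => (c r).1) (0 : Space n) (Icc (-T) T) s :=
      fun s hs' => by
        have := (ContinuousLinearMap.fst ℝ (Space n) (Space n)).hasFDerivAt.comp_hasDerivWithinAt s
          (hc s hs')
        simpa [liftField, Function.comp_def] using this
    have := hI.norm_image_sub_le_of_norm_hasDerivWithin_le hd (C := 0) (fun s _ => by simp) h0m ht
    simp only [zero_mul, norm_le_zero_iff, sub_eq_zero, h0] at this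
    exact this
  -- the image runs along the segment
  set σd : ℝ → Space n := fun t => E (c t).2 - E p.2
  have hσ : ∀ s ∈ Icc (-T) T,
      HasDerivWithinAt σd (θ s • p.1) (Icc (-T) T) s := fun s hs' => by
    have h2 : HasDerivWithinAt (fun r => (c r).2) (θ s • (fderiv ℝ E (c s).2).inverse (c s).1)
        (Icc (-T) T) s := by
      have := (ContinuousLinearMap.snd ℝ (Space n) (Space n)).hasFDerivAt.comp_hasDerivWithinAt s
        (hc s hs')
      simpa [liftField, Function.comp_def] using this
    have h3 := ((h.hasFDerivAt (c s).2).comp_hasDerivWithinAt s h2).sub_const (E p.2)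
    simp only [map_smul, fderiv_inverse_apply hg h hs, hfst s hs'] at h3
    exact h3
  have hseg : ∀ t ∈ Icc (-T) T, E (c t).2 ∈ K := by
    intro t ht
    by_cases hw : p.1 = 0
    · have := hI.norm_image_sub_le_of_norm_hasDerivWithin_le hσ (C := 0)
        (fun s _ => by simp [hw]) h0m ht
      simp only [zero_mul, norm_le_zero_iff, σd, h0, sub_self, sub_zero, sub_eq_zero] at this
      exact ⟨0, h0m, by simp [this]⟩
    · set τ : ℝ → ℝ := fun r => inner ℝ p.1 (σd r) / ‖p.1‖ ^ 2
      have hn : (‖p.1‖ : ℝ) ^ 2 ≠ 0 := pow_ne_zero _ (norm_ne_zero_iff.2 hw)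
      have hτ : ∀ s ∈ Icc (-T) T, HasDerivWithinAt τ (θ s) (Icc (-T) T) s := fun s hs' => by
        have := ((innerSL ℝ p.1).hasFDerivAt.comp_hasDerivWithinAt s (hσ s hs')).div_const (‖p.1‖ ^ 2)
        refine this.congr_deriv ?_
        simp only [innerSL_apply_apply, inner_smul_right, real_inner_self_eq_norm_sq]
        field_simp
      have h1 : ∀ s ∈ Icc (-T) T, HasDerivWithinAt (fun r => σd r - τ r • p.1) (0 : Space n)
          (Icc (-T) T) s := fun s hs' => by
        simpa using (hσ s hs').fun_sub ((hτ s hs').smul_const p.1)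
      have h2 := hI.norm_image_sub_le_of_norm_hasDerivWithin_le h1 (C := 0) (fun s _ => by simp)
        h0m ht
      have h4 := hI.norm_image_sub_le_of_norm_hasDerivWithin_le hτ (C := 1)
        (fun s hs' => by rw [Real.norm_eq_abs, abs_le]; constructor <;> linarith [(hθ s hs').1, (hθ s hs').2])
        h0m ht
      have hz : σd 0 = 0 := by simp [σd, h0]
      have hτ0 : τ 0 = 0 := by simp [τ, hz]
      simp only [hz, hτ0, zero_smul, sub_zero, zero_mul, norm_le_zero_iff, sub_eq_zero] at h2
      rw [hτ0, sub_zero, Real.norm_eq_abs, one_mul, sub_zero, Real.norm_eq_abs] at h4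
      refine ⟨τ t, ?_, by simp only [← h2, σd]; abel⟩
      rw [mem_Icc, ← abs_le]
      exact h4.trans (abs_le.2 ⟨ht.1, ht.2⟩)
  -- the lift has bounded speed
  have hsnd : ∀ t ∈ Icc (-T) T, ‖(c t).2 - p.2‖ ≤ max C 0 * T := by
    intro t ht
    have hd : ∀ s ∈ Icc (-T) T, HasDerivWithinAt (fun r => (c r).2)
        (θ s • (fderiv ℝ E (c s).2).inverse (c s).1) (Icc (-T) T) s := fun s hs' => by
      have := (ContinuousLinearMap.snd ℝ (Space n) (Space n)).hasFDerivAt.comp_hasDerivWithinAt s
        (hc s hs')
      simpa [liftField, Function.comp_def] using this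
    have := hI.norm_image_sub_le_of_norm_hasDerivWithin_le hd (C := max C 0) (fun s hs' => ?_) h0m ht
    · simp only [h0, sub_zero, Real.norm_eq_abs] at this
      exact this.trans (mul_le_mul_of_nonneg_left (abs_le.2 ⟨ht.1, ht.2⟩) (le_max_right _ _))
    · rw [norm_smul, Real.norm_eq_abs, abs_of_nonneg (hθ s hs').1, hfst s hs']
      refine (mul_le_of_le_one_left (norm_nonneg _) (hθ s hs').2).trans ?_
      exact ((norm_inverse_le hg h hs _ _).trans ((Real.le_norm_self _).trans
        (hC _ (hseg s hs')))).trans (le_max_left _ _)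
  intro t ht
  have h1 : ‖(c t).2‖ ≤ ‖p.2‖ + max C 0 * T := by
    linarith [hsnd t ht, norm_sub_norm_le (c t).2 p.2]
  have h2 : ‖p.1‖ ≤ ‖p‖ := norm_fst_le p
  have h3 : ‖p.2‖ ≤ ‖p‖ := norm_snd_le p
  have h4 : 0 ≤ max C 0 * T := mul_nonneg (le_max_right _ _) hT
  rw [Prod.norm_def, hfst t ht]
  exact max_le (by linarith [norm_nonneg p]) (by linarith [norm_nonneg p])

end

/-- The exponential chart of a complete metric of nonpositive curvature has a smooth inverse. -/
theorem exists_inverse (hg : IsMetric g) (h : Geo.Chart g o E) (hs : SecBound g 0) :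
    ∃ F : Space n → Space n, ContDiff ℝ ∞ F ∧ Function.LeftInverse F E ∧
      Function.RightInverse F E := by
  obtain ⟨Φ, hΦ⟩ := exists_isFlow (contDiff_liftField hg h hs) (apriori_liftField hg h hs)
  set F : Space n → Space n := fun y => (Φ 1 (y - o, 0)).2
  have hF : ContDiff ℝ ∞ F := contDiff_snd.comp
    (hΦ.contDiff_one.comp ((contDiff_id.sub contDiff_const).prodMk contDiff_const))
  have hright : ∀ y, E (F y) = y := by
    intro y
    set q : Space n × Space n := (y - o, 0)
    have hfst : ∀ t, (Φ t q).1 = y - o := by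
      intro t
      have hd : ∀ s, HasDerivAt (fun r => (Φ r q).1) (0 : Space n) s := fun s => by
        have := (ContinuousLinearMap.fst ℝ (Space n) (Space n)).hasFDerivAt.comp_hasDerivAt s
          (hΦ.deriv q s)
        simpa [liftField, Function.comp_def] using this
      rw [is_const_of_deriv_eq_zero (fun s => (hd s).differentiableAt) (fun s => (hd s).deriv) t 0]
      simp [hΦ.zero, q]
    have hd : ∀ s, HasDerivAt (fun r => E (Φ r q).2 - r • (y - o)) (0 : Space n) s := fun s => by
      have h2 := (ContinuousLinearMap.snd ℝ (Space n) (Space n)).hasFDerivAt.comp_hasDerivAt s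
        (hΦ.deriv q s)
      have h3 := ((h.hasFDerivAt (Φ s q).2).comp_hasDerivAt s h2).fun_sub
        (Geo.hasDerivAt_ray (y - o) s)
      simpa [liftField, fderiv_inverse_apply hg h hs, hfst] using h3
    have := is_const_of_deriv_eq_zero (fun s => (hd s).differentiableAt) (fun s => (hd s).deriv) 1 0
    simp only [zero_smul, one_smul, sub_zero, hΦ.zero, q, h.zero] at this
    show E (Φ 1 q).2 = y
    rw [← sub_eq_zero]
    linear_combination (norm := module) this
  refine ⟨F, hF, fun v => ?_, hright⟩
  -- `F ∘ E` is the identity along every ray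
  have hF0 : F o = 0 := by
    have hc : ∀ t ∈ Icc (0 : ℝ) 1, HasDerivAt (fun r => Φ r ((0 : Space n), 0))
        ((1 : ℝ) • liftField E (Φ t (0, 0))) t := fun t _ => by simpa using hΦ.deriv _ t
    have hd : ∀ t ∈ Icc (0 : ℝ) 1, HasDerivAt (fun _ : ℝ => ((0 : Space n), (0 : Space n)))
        ((1 : ℝ) • liftField E (0, 0)) t := fun t _ => by
      refine (hasDerivAt_const t ((0 : Space n), (0 : Space n))).congr_deriv ?_
      simp [liftField, Prod.mk_zero_zero]
    have := solution_unique (contDiff_liftField hg h hs) hc hd (by simp [hΦ.zero])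
      (right_mem_Icc.2 zero_le_one)
    simpa [F] using congrArg Prod.snd this
  set S : Set ℝ := {t | F (E (t • v)) = t • v}
  have hcl : IsClosed S := isClosed_eq
    (hF.continuous.comp (h.smooth.continuous.comp (continuous_id.smul continuous_const)))
    (continuous_id.smul continuous_const)
  have hop : IsOpen S := by
    rw [isOpen_iff_mem_nhds]
    intro t₀ ht₀
    obtain ⟨e, he⟩ := exists_equiv hg h hs (t₀ • v)
    have hd : HasFDerivAt E (e : Space n →L[ℝ] Space n) (t₀ • v) := by
      rw [he]; exact h.hasFDerivAt _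
    have hat : ContDiffAt ℝ ∞ E (t₀ • v) := h.smooth.contDiffAt
    have hev := (hat.hasStrictFDerivAt' hd (by simp)).eventually_left_inverse
    set loc := (hat.hasStrictFDerivAt' hd (by simp)).localInverse E e (t₀ • v)
    have h1 : Tendsto (fun t : ℝ => t • v) (𝓝 t₀) (𝓝 (t₀ • v)) :=
      (continuous_id.smul continuous_const).tendsto _
    have h2 : Tendsto (fun t : ℝ => F (E (t • v))) (𝓝 t₀) (𝓝 (t₀ • v)) := by
      have := ((hF.continuous.comp h.smooth.continuous).tendsto (t₀ • v)).comp h1
      rwa [Function.comp_apply, show F (E (t₀ • v)) = t₀ • v from ht₀] at this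
    filter_upwards [h1.eventually hev, h2.eventually hev] with t ha hb
    show F (E (t • v)) = t • v
    rw [← hb, hright, ha]
  have hall : S = univ := IsClopen.eq_univ ⟨hcl, hop⟩ ⟨0, by simp [S, h.zero, hF0]⟩
  have : (1 : ℝ) ∈ S := hall ▸ mem_univ _
  simpa [S] using this

/-- Complete metrics of nonpositive curvature have global normal coordinates. -/
theorem normalCharts_of_geoComplete (hg : IsMetric g) (hs : SecBound g 0)
    (hgeo : GeoComplete g) : NormalCharts g := fun o => by
  obtain ⟨Φ, hΦ⟩ := hgeo.exists_isFlow hg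
  obtain ⟨E, hE⟩ := exists_chart hΦ hg o
  obtain ⟨F, hF, hl, hr⟩ := exists_inverse hg hE hs
  exact ⟨E, F, hE.smooth, hF, hl, hr, hE.zero, hE.iso, hE.geo⟩

end

end Vale.Agent.P255.Hadamard
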