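import Mathlib
import Vale.Agent.P219.Six.Bridge.Dist
import Vale.Agent.P255.CN
import Vale.Agent.P255.Hadamard.Global

/-!
# The distance of a complete nonpositively curved metric on `ℝ^n` and its CN inequality
-/

open Set Filter Topology
open scoped ContDiff RealInnerProductSpace

namespace Vale.Agent.P255.Hadamard

open Vale.Agent.P219 Vale.Agent.P219.Univ Vale.Agent.P219.Six.Bridge

noncomputable section

variable {n : ℕ} {g : MetricField n} {E F : Space n → Space n → Space n}

section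

variable (h : Charts g E F 0)
include h

/-- Half the squared distance is convex along geodesics, with the speed as modulus. -/
theorem midpoint_le (a u z : Space n) :
    rr F z (E a ((1 / 2 : ℝ) • u)) ^ 2 ≤
      (rr F z a ^ 2 + rr F z (E a u) ^ 2) / 2 - ‖u‖ ^ 2 / 4 := by
  set ψ := psi2 F z
  have hp := pot h z
  set γ : ℝ → Space n := fun t => E a (t • u)
  set γ' : ℝ → Space n := Geo.Y (E a) u u
  have hγ : ∀ t, HasDerivAt γ (γ' t) t := (h.chart a).deriv_ray u
  have hγ' : ∀ t, HasDerivAt γ' (-gam g (γ t) (γ' t) (γ' t)) t := fun t =>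
    ((h.chart a).deriv_Y u u t).congr_deriv ((h.chart a).geo_eq u t)
  have hψ1 : Differentiable ℝ (fderiv ℝ ψ) :=
    (hp.smooth.fderiv_right (m := ∞) le_rfl).differentiable (by simp)
  set k : ℝ → ℝ := fun t => ψ (γ t) - ‖u‖ ^ 2 / 2 * t ^ 2
  have hk : ∀ t, HasDerivAt k (fderiv ℝ ψ (γ t) (γ' t) - ‖u‖ ^ 2 * t) t := fun t => by
    refine (((hp.smooth.differentiable (by simp) (γ t)).hasFDerivAt.comp_hasDerivAt t (hγ t)).fun_sub
      ((hasDerivAt_pow 2 t).const_mul (‖u‖ ^ 2 / 2))).congr_deriv ?_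
    simp
    ring
  have hk' : ∀ t, HasDerivAt (fun s => fderiv ℝ ψ (γ s) (γ' s) - ‖u‖ ^ 2 * s)
      (gHess g ψ (γ t) (γ' t) (γ' t) - ‖u‖ ^ 2) t := fun t => by
    refine ((((hψ1 (γ t)).hasFDerivAt.comp_hasDerivAt t (hγ t)).clm_apply (hγ' t)).fun_sub
      ((hasDerivAt_id t).const_mul (‖u‖ ^ 2))).congr_deriv ?_
    simp [gHess]
    ring
  have hpos : ∀ t, 0 ≤ gHess g ψ (γ t) (γ' t) (γ' t) - ‖u‖ ^ 2 := fun t => by
    have := hp.hess (γ t) (γ' t)
    rw [(h.chart a).speed h.met, real_inner_self_eq_norm_sq] at this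
    linarith
  have hcv : ConvexOn ℝ univ k := convexOn_of_hasDerivWithinAt2_nonneg convex_univ
    (continuous_iff_continuousAt.2 fun t => (hk t).continuousAt).continuousOn
    (fun t _ => (hk t).hasDerivWithinAt) (fun t _ => (hk' t).hasDerivWithinAt) fun t _ => hpos t
  have := hcv.2 (mem_univ (0 : ℝ)) (mem_univ (1 : ℝ)) (by norm_num : (0 : ℝ) ≤ 1 / 2)
    (by norm_num : (0 : ℝ) ≤ 1 / 2) (by norm_num)
  simp only [k, γ, ψ, psi2, smul_eq_mul, mul_zero, mul_one, zero_add, zero_smul, one_smul,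
    (h.chart a).zero] at this
  simp only [rr]
  linarith

theorem isCN_rr : P255.IsCN (rr F) where
  self := rr_self h
  symm := rr_symm h
  triangle := rr_triangle h
  midpoint a b := ⟨E a ((1 / 2 : ℝ) • F a b), fun z => by
    have := midpoint_le h a (F a b) z
    rwa [h.right a b] at this⟩

theorem eq_of_rr_zero {a b : Space n} (hab : rr F a b = 0) : a = b := by
  have h1 := h.right a b
  rw [norm_eq_zero.1 hab, (h.chart a).zero] at h1
  exact h1

theorem isCompact_ball (a : Space n) (r : ℝ) : IsCompact {z | rr F a z ≤ r} := by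
  have e : {z | rr F a z ≤ r} = E a '' Metric.closedBall 0 r := by
    ext z
    refine ⟨fun hz => ⟨F a z, by simpa [rr] using hz, h.right a z⟩, ?_⟩
    rintro ⟨v, hv, rfl⟩
    simpa [rr_exp h] using hv
  rw [e]
  exact (isCompact_closedBall _ _).image (h.chart a).smooth.continuous

/-- Maps preserving the metric do not increase distances. -/
theorem rr_map_le {φ : Space n → Space n} (hφ : Differentiable ℝ φ)
    (hiso : ∀ x u v, g (φ x) (fderiv ℝ φ x u) (fderiv ℝ φ x v) = g x u v) (a b : Space n) :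
    rr F (φ a) (φ b) ≤ rr F a b := by
  set u := F a b
  have hd : ∀ t, HasDerivAt (fun s : ℝ => φ (E a (s • u)))
      (fderiv ℝ φ (E a (t • u)) (Geo.Y (E a) u u t)) t := fun t =>
    (hφ _).hasFDerivAt.comp_hasDerivAt t ((h.chart a).deriv_ray u t)
  have := rr_curve h (φ a) hd (L := ‖u‖) fun t _ => le_of_eq (by
    rw [gNorm, hiso, (h.chart a).speed h.met, real_inner_self_eq_norm_sq,
      Real.sqrt_sq (norm_nonneg u)])
  simp only [zero_smul, one_smul, (h.chart a).zero, rr_self h, zero_add, u, h.right a b] at this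
  exact this

end

/-- A complete metric of nonpositive curvature on `ℝ^n` has a distance with the CN inequality,
continuous, definite, proper, and not increased by any map which preserves the metric. -/
theorem exists_dist (hn : 2 ≤ n) (hg : IsMetric g) (hs : SecBound g 0) (hgeo : GeoComplete g) :
    ∃ d : Space n → Space n → ℝ, P255.IsCN d ∧
      Continuous (fun p : Space n × Space n => d p.1 p.2) ∧ (∀ x y, d x y = 0 → x = y) ∧
      (∀ x r, IsCompact {y | d x y ≤ r}) ∧
      ∀ φ : Space n → Space n, Differentiable ℝ φ →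
        (∀ x u v, g (φ x) (fderiv ℝ φ x u) (fderiv ℝ φ x v) = g x u v) →
        ∀ x y, d (φ x) (φ y) ≤ d x y := by
  choose E F hE hF hFE hEF hE0 hiso hgeo' using normalCharts_of_geoComplete hg hs hgeo
  have h : Charts g E F 0 :=
    ⟨hn, hg, le_rfl, hs, fun o => ⟨hE o, hE0 o, hiso o, hgeo' o⟩, hF, hFE, hEF⟩
  exact ⟨rr F, isCN_rr h, continuous_rr h, fun x y => eq_of_rr_zero h, isCompact_ball h,
    fun φ hφ hi x y => rr_map_le h hφ hi x y⟩

/-- Metric isomorphisms preserve such a distance. -/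
theorem dist_eq_of_le {d : Space n → Space n → ℝ}
    (hd : ∀ φ : Space n → Space n, Differentiable ℝ φ →
        (∀ x u v, g (φ x) (fderiv ℝ φ x u) (fderiv ℝ φ x v) = g x u v) →
        ∀ x y, d (φ x) (φ y) ≤ d x y)
    {φ ψ : Space n → Space n} (hφ : Differentiable ℝ φ) (hψ : Differentiable ℝ ψ)
    (hleft : Function.LeftInverse ψ φ) (hright : Function.RightInverse ψ φ)
    (hi : ∀ x u v, g (φ x) (fderiv ℝ φ x u) (fderiv ℝ φ x v) = g x u v) (x y : Space n) :
    d (φ x) (φ y) = d x y := by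
  refine le_antisymm (hd φ hφ hi x y) ?_
  have hinv : ∀ z w, fderiv ℝ φ (ψ z) (fderiv ℝ ψ z w) = w := fun z w => by
    have h1 : HasFDerivAt (φ ∘ ψ) ((fderiv ℝ φ (ψ z)).comp (fderiv ℝ ψ z)) z :=
      (hφ _).hasFDerivAt.comp z (hψ z).hasFDerivAt
    rw [show φ ∘ ψ = id from funext hright] at h1
    exact congrFun (congrArg DFunLike.coe (h1.unique (hasFDerivAt_id z))) w
  have h2 := hd ψ hψ (fun z u v => by
    have := hi (ψ z) (fderiv ℝ ψ z u) (fderiv ℝ ψ z v)
    rw [hright z, hinv, hinv] at this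
    exact this.symm) (φ x) (φ y)
  rwa [hleft x, hleft y] at h2

end

end Vale.Agent.P255.Hadamard
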