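import Mathlib
import Vale.Agent.P255.Hadamard.Flow
import Vale.Agent.P255.Hadamard.Exp

/-!
# Criteria for geodesic completeness

A metric on `ℝ^n` is complete if curves of bounded speed stay bounded on bounded time intervals;
this holds if the radial component of every vector is bounded by its length.
-/

open Set Filter Topology
open scoped ContDiff RealInnerProductSpace

namespace Vale.Agent.P255.Hadamard

open Vale.Agent.P219 Vale.Agent.P219.Univ Vale.Agent.P219.Six.Bridge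
open Vale.Agent.P219.Six (sprayF IsGeo)

noncomputable section

variable {n : ℕ} {g : MetricField n}

/-- Curves of bounded speed stay bounded on bounded time intervals. -/
def BoundedGrowth (g : MetricField n) : Prop :=
  ∀ (x : Space n) (T L : ℝ), 0 ≤ T → ∃ R : ℝ, ∀ γ γ' : ℝ → Space n, γ 0 = x →
    (∀ t ∈ Icc (-T) T, HasDerivWithinAt γ (γ' t) (Icc (-T) T) t) →
    (∀ t ∈ Icc (-T) T, gNorm g (γ t) (γ' t) ≤ L) → ∀ t ∈ Icc (-T) T, ‖γ t‖ ≤ R

/-- A radial bound gives bounded growth. -/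
theorem boundedGrowth_of_radial {k : ℝ} (hk : 0 < k)
    (hr : ∀ x v : Space n, k * |inner ℝ x v| ≤ ‖x‖ * gNorm g x v) : BoundedGrowth g := by
  intro x T L hT
  refine ⟨Real.sqrt (‖x‖ ^ 2 + 1) + max L 0 / k * T, fun γ γ' h0 hd hL t ht => ?_⟩
  set f : ℝ → ℝ := fun s => Real.sqrt (‖γ s‖ ^ 2 + 1)
  have hpos : ∀ s, 0 < ‖γ s‖ ^ 2 + 1 := fun s => by positivity
  have hf : ∀ s ∈ Icc (-T) T, HasDerivWithinAt f
      (2 * inner ℝ (γ s) (γ' s) / (2 * Real.sqrt (‖γ s‖ ^ 2 + 1))) (Icc (-T) T) s := fun s hs =>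
    ((hd s hs).norm_sq.add_const 1).sqrt (hpos s).ne'
  have hb : ∀ s ∈ Icc (-T) T,
      ‖2 * inner ℝ (γ s) (γ' s) / (2 * Real.sqrt (‖γ s‖ ^ 2 + 1))‖ ≤ max L 0 / k := fun s hs => by
    have hq := Real.sqrt_pos.2 (hpos s)
    have h1 : ‖γ s‖ ≤ Real.sqrt (‖γ s‖ ^ 2 + 1) := Real.le_sqrt_of_sq_le (by linarith)
    have h2 := (hr (γ s) (γ' s)).trans (mul_le_mul h1 ((hL s hs).trans (le_max_left L 0))
      (Real.sqrt_nonneg _) hq.le)
    rw [Real.norm_eq_abs, mul_div_mul_left _ _ (two_ne_zero' ℝ), abs_div, abs_of_pos hq,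
      div_le_div_iff₀ hq hk]
    linarith
  have h0m : (0 : ℝ) ∈ Icc (-T) T := ⟨by linarith, hT⟩
  have := (convex_Icc (-T) T).norm_image_sub_le_of_norm_hasDerivWithin_le hf hb h0m ht
  simp only [Real.norm_eq_abs, sub_zero, f, h0] at this
  have h3 : ‖γ t‖ ≤ Real.sqrt (‖γ t‖ ^ 2 + 1) := Real.le_sqrt_of_sq_le (by linarith)
  have h4 : max L 0 / k * |t| ≤ max L 0 / k * T :=
    mul_le_mul_of_nonneg_left (abs_le.2 ⟨ht.1, ht.2⟩) (div_nonneg (le_max_right _ _) hk.le)
  linarith [(abs_le.1 this).2]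

theorem exists_lower_bound (hg : IsMetric g) (R : ℝ) :
    ∃ m : ℝ, 0 < m ∧ ∀ x v : Space n, ‖x‖ ≤ R → m * ‖v‖ ^ 2 ≤ g x v v := by
  set S : Set (Space n × Space n) := Metric.closedBall 0 R ×ˢ Metric.sphere 0 1
  have hScpt : IsCompact S := (isCompact_closedBall _ _).prod (isCompact_sphere _ _)
  have hc : Continuous fun p : Space n × Space n => g p.1 p.2 p.2 :=
    ((hg.smooth.continuous.comp continuous_fst).clm_apply continuous_snd).clm_apply continuous_snd
  have hpos : ∃ m : ℝ, 0 < m ∧ ∀ p ∈ S, m ≤ g p.1 p.2 p.2 := by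
    rcases S.eq_empty_or_nonempty with hS | hS
    · exact ⟨1, one_pos, fun p hp => by simp [hS] at hp⟩
    · obtain ⟨p, hp, hmin⟩ := hScpt.exists_isMinOn hS hc.continuousOn
      refine ⟨g p.1 p.2 p.2, hg.pos _ _ ?_, fun q hq => hmin hq⟩
      intro h0
      have := hp.2
      rw [mem_sphere_zero_iff_norm, h0, norm_zero] at this
      exact one_ne_zero this.symm
  obtain ⟨m, hm, hb⟩ := hpos
  refine ⟨m, hm, fun x v hx => ?_⟩
  rcases eq_or_ne v 0 with rfl | hv
  · simp
  · have hn : 0 < ‖v‖ := norm_pos_iff.2 hv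
    have := hb (x, ‖v‖⁻¹ • v) ⟨by simpa using hx, by simp [norm_smul, inv_mul_cancel₀ hn.ne']⟩
    simp only [map_smul, smul_apply, smul_eq_mul] at this
    rw [← mul_assoc, ← mul_inv, inv_mul_eq_div, le_div_iff₀ (by positivity)] at this
    linarith [show ‖v‖ ^ 2 = ‖v‖ * ‖v‖ from sq _]

/-- Bounded growth bounds the damped geodesic field. -/
theorem apriori_spray (hg : IsMetric g) (hgr : BoundedGrowth g) : AprioriBound (sprayF g) := by
  intro p T hT
  obtain ⟨R, hR⟩ := hgr p.1 T (gNorm g p.1 p.2) hT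
  obtain ⟨m, hm, hlow⟩ := exists_lower_bound hg R
  refine ⟨max R (Real.sqrt (g p.1 p.2 p.2 / m)), fun c θ h0 hθ hc => ?_⟩
  have h1 : ∀ s ∈ Icc (-T) T, HasDerivWithinAt (fun r => (c r).1) (θ s • (c s).2)
      (Icc (-T) T) s := fun s hs => by
    have := (ContinuousLinearMap.fst ℝ (Space n) (Space n)).hasFDerivAt.comp_hasDerivWithinAt s
      (hc s hs)
    simpa [sprayF, Function.comp_def] using this
  have h2 : ∀ s ∈ Icc (-T) T, HasDerivWithinAt (fun r => (c r).2)
      (θ s • -gam g (c s).1 (c s).2 (c s).2) (Icc (-T) T) s := fun s hs => by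
    have := (ContinuousLinearMap.snd ℝ (Space n) (Space n)).hasFDerivAt.comp_hasDerivWithinAt s
      (hc s hs)
    simpa [sprayF, Function.comp_def] using this
  have h0m : (0 : ℝ) ∈ Icc (-T) T := ⟨by linarith, hT⟩
  set e : ℝ → ℝ := fun r => g (c r).1 (c r).2 (c r).2
  have he : ∀ s ∈ Icc (-T) T, HasDerivWithinAt e (0 : ℝ) (Icc (-T) T) s := fun s hs => by
    have hA := ((hg.smooth.differentiable (by simp)) (c s).1).hasFDerivAt.comp_hasDerivWithinAt s
      (h1 s hs)
    refine ((hA.clm_apply (h2 s hs)).clm_apply (h2 s hs)).congr_deriv ?_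
    simp only [Function.comp_apply, map_smul, smul_apply, map_neg, add_apply, neg_apply,
      smul_eq_mul, g_compat hg]
    ring
  have hconst : ∀ t ∈ Icc (-T) T, e t = g p.1 p.2 p.2 := fun t ht => by
    have := (convex_Icc (-T) T).norm_image_sub_le_of_norm_hasDerivWithin_le he (C := 0)
      (fun s _ => by simp) h0m ht
    simp only [zero_mul, norm_le_zero_iff, sub_eq_zero] at this
    rw [this]
    simp [e, h0]
  intro t ht
  have hx : ∀ s ∈ Icc (-T) T, ‖(c s).1‖ ≤ R := hR _ _ (by simp [h0]) h1 fun s hs => by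
    simp only [gNorm, map_smul, smul_apply, smul_eq_mul]
    rw [← mul_assoc, Real.sqrt_mul (mul_self_nonneg _), Real.sqrt_mul_self (hθ s hs).1]
    refine (mul_le_of_le_one_left (Real.sqrt_nonneg _) (hθ s hs).2).trans (le_of_eq ?_)
    exact congrArg Real.sqrt (hconst s hs)
  have hv : ‖(c t).2‖ ≤ Real.sqrt (g p.1 p.2 p.2 / m) := by
    refine Real.le_sqrt_of_sq_le ((le_div_iff₀ hm).2 ?_)
    rw [← hconst t ht, mul_comm]
    exact hlow _ _ (hx t ht)
  rw [Prod.norm_def]
  exact max_le ((hx t ht).trans (le_max_left _ _)) (hv.trans (le_max_right _ _))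

/-- Bounded growth makes all geodesics complete. -/
theorem geoComplete_of_boundedGrowth (hg : IsMetric g) (hgr : BoundedGrowth g) : GeoComplete g := by
  obtain ⟨Φ, hΦ⟩ := exists_isFlow (contDiff_spray hg) (apriori_spray hg hgr)
  exact fun x v => ⟨_, _, isGeo_flow hΦ x v, by simp [hΦ.zero], by simp [hΦ.zero]⟩

/-- A radial bound makes all geodesics complete. -/
theorem geoComplete_of_radial (hg : IsMetric g) {k : ℝ} (hk : 0 < k)
    (hr : ∀ x v : Space n, k * |inner ℝ x v| ≤ ‖x‖ * gNorm g x v) : GeoComplete g :=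
  geoComplete_of_boundedGrowth hg (boundedGrowth_of_radial hk hr)

end

end Vale.Agent.P255.Hadamard
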